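import Vale.Agent.P274.Full.Stmts
import Mathlib.Analysis.Normed.Module.FiniteDimension
import Mathlib.Analysis.Calculus.FDeriv.Mul
import Mathlib.Analysis.Calculus.FDeriv.Prod
import Mathlib.Analysis.Calculus.FDeriv.Comp
import Mathlib.Analysis.Calculus.FDeriv.WithLp
import Mathlib.Analysis.Calculus.Deriv.Inv
import Mathlib.LinearAlgebra.FiniteDimensional.Lemmas
import Mathlib.LinearAlgebra.Matrix.ToLin

/-!
A Siegel domain is biholomorphic to a bounded domain.
-/

open Filter Metric Set Function Topology Complex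

namespace Vale.Agent.P274.Full.Cayley

noncomputable section

variable {m k : ℕ} (S : Siegel m k)

@[simp] theorem iv_apply (w : Cn k) (i : Fin k) : iv w i = (w i).im := rfl

@[simp] theorem rv_apply (w : Cn k) (i : Fin k) : rv w i = (w i).re := rfl

@[simp] theorem mkC_apply (u v : Rn k) (i : Fin k) : mkC u v i = ⟨u i, v i⟩ := rfl

theorem iv_mkC (u v : Rn k) : iv (mkC u v) = v := by
  ext i; simp

/-- The complexified functional `ν l`. -/
def fc (l : Fin k) : Cn k →ₗ[ℂ] ℂ where
  toFun w := (S.ν l (rv w) : ℂ) + I * (S.ν l (iv w) : ℂ)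
  map_add' a b := by
    have h1 : rv (a + b) = rv a + rv b := by ext i; simp
    have h2 : iv (a + b) = iv a + iv b := by ext i; simp
    rw [h1, h2, map_add, map_add]
    push_cast
    ring
  map_smul' c a := by
    have h1 : rv (c • a) = c.re • rv a - c.im • iv a := by ext i; simp
    have h2 : iv (c • a) = c.re • iv a + c.im • rv a := by ext i; simp
    rw [h1, h2, map_sub, map_add, map_smul, map_smul, map_smul, map_smul]
    apply Complex.ext <;> simp

theorem fc_im (l : Fin k) (w : Cn k) : (fc S l w).im = S.ν l (iv w) := by simp [fc]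

/-- All the complexified functionals together. -/
def fvec : Cn k →ₗ[ℂ] (Fin k → ℂ) := LinearMap.pi (fc S)

theorem fvec_injective : Function.Injective (fvec S) := by
  rw [← LinearMap.ker_eq_bot, LinearMap.ker_eq_bot']
  intro w hw
  have hν : Function.Injective (LinearMap.pi fun l => (S.ν l).toLinearMap :
      Rn k →ₗ[ℝ] (Fin k → ℝ)) := by
    have hspan : Submodule.span ℝ (range fun l => (S.ν l).toLinearMap) = ⊤ := by
      refine LinearIndependent.span_eq_top_of_card_eq_finrank' ?_ (by simp)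
      exact S.indep.map' (ContinuousLinearMap.coeLM ℝ) (LinearMap.ker_eq_bot.2
        ContinuousLinearMap.coe_injective)
    rw [← LinearMap.ker_eq_bot, LinearMap.ker_eq_bot']
    intro v hv
    refine (Module.forall_dual_apply_eq_zero_iff ℝ v).1 fun φ => ?_
    have hφ : φ ∈ Submodule.span ℝ (range fun l => (S.ν l).toLinearMap) := by
      rw [hspan]; exact Submodule.mem_top
    induction hφ using Submodule.span_induction with
    | mem x hx => obtain ⟨l, rfl⟩ := hx; exact congrFun hv l
    | zero => rfl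
    | add x y _ _ hx hy => simp [hx, hy]
    | smul t x _ hx => simp [hx]
  have hi : iv w = 0 := hν (by
    rw [map_zero]
    funext l
    have := congrArg Complex.im (congrFun hw l)
    simpa [fvec, fc] using this)
  have hr : rv w = 0 := hν (by
    rw [map_zero]
    funext l
    have := congrArg Complex.re (congrFun hw l)
    simpa [fvec, fc] using this)
  ext i
  apply Complex.ext
  · simpa using congrArg (fun v : Rn k => v i) hr
  · simpa using congrArg (fun v : Rn k => v i) hi

/-- The functionals as coordinates. -/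
def fequiv : Cn k ≃L[ℂ] (Fin k → ℂ) :=
  (LinearEquiv.ofInjectiveOfFinrankEq (fvec S) (fvec_injective S) (by simp)).toContinuousLinearEquiv

theorem fequiv_apply (w : Cn k) (l : Fin k) : fequiv S w l = fc S l w := rfl

theorem im_fequiv (w : Cn k) (l : Fin k) : (fequiv S w l).im = S.ν l (iv w) :=
  fc_im S l w

theorem nu_H_nonneg (a : Cn m) (l : Fin k) : 0 ≤ S.ν l (S.H a a) := by
  obtain ⟨v, hv⟩ := S.nonempty_C
  by_contra hneg
  push Not at hneg
  -- scaling `a` by a large factor contradicts positivity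
  set t : ℝ := S.ν l v / (-(S.ν l (S.H a a))) + 1 with ht
  have hvpos := S.pos l v hv
  have ht0 : 0 < t := by
    have : 0 < S.ν l v / (-(S.ν l (S.H a a))) := div_pos hvpos (by linarith)
    linarith
  have h2 := S.pos l _ (S.add_H (Real.sqrt t • a) v hv)
  rw [map_add, (S.H _).map_smul, S.H.map_smul] at h2
  simp only [ContinuousLinearMap.smul_apply, map_smul, smul_eq_mul] at h2
  rw [← mul_assoc, Real.mul_self_sqrt ht0.le] at h2
  have : S.ν l v / (-(S.ν l (S.H a a))) * (-(S.ν l (S.H a a))) = S.ν l v :=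
    div_mul_cancel₀ _ (by linarith)
  nlinarith

/-- The sum of the forms. -/
def q (a : Cn m) : ℝ := ∑ l, S.ν l (S.H a a)

theorem exists_q_bound : ∃ c : ℝ, 0 < c ∧ ∀ a, c * ‖a‖ ^ 2 ≤ q S a := by
  rcases subsingleton_or_nontrivial (Cn m) with h | h
  · refine ⟨1, one_pos, fun a => ?_⟩
    rw [Subsingleton.elim a 0]
    simp [q]
  obtain ⟨a₀, ha₀, hmin⟩ := (isCompact_sphere (0 : Cn m) 1).exists_isMinOn
    (NormedSpace.sphere_nonempty.2 zero_le_one) (f := q S) (by unfold q; fun_prop)
  have ha₀' : a₀ ≠ 0 := fun h0 => by simp [h0] at ha₀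
  obtain ⟨l, hl⟩ := S.pos_H a₀ ha₀'
  have hq0 : 0 < q S a₀ := by
    refine lt_of_lt_of_le hl ?_
    exact Finset.single_le_sum (fun i _ => nu_H_nonneg S a₀ i) (Finset.mem_univ l)
  refine ⟨q S a₀, hq0, fun a => ?_⟩
  by_cases ha : a = 0
  · simp [ha, q]
  have hn : 0 < ‖a‖ := norm_pos_iff.2 ha
  have hu : ‖a‖⁻¹ • a ∈ sphere (0 : Cn m) 1 := by
    rw [mem_sphere_zero_iff_norm, norm_smul, norm_inv, norm_norm, inv_mul_cancel₀ hn.ne']
  have := hmin hu
  simp only [q, (S.H _).map_smul, S.H.map_smul, ContinuousLinearMap.smul_apply, map_smul,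
    smul_eq_mul, mem_ofPred_eq, ← Finset.mul_sum] at this
  calc q S a₀ * ‖a‖ ^ 2 ≤ (‖a‖⁻¹ * (‖a‖⁻¹ * q S a)) * ‖a‖ ^ 2 :=
        mul_le_mul_of_nonneg_right this (sq_nonneg _)
    _ = q S a := by field_simp

/-- The Cayley map. -/
def Φ (p : Mod m k) : Cn (m + k) :=
  WithLp.toLp 2 (Fin.append (fun i => p.1 i / ((∑ l, fequiv S p.2 l) + I))
    fun l => (fequiv S p.2 l - I) / (fequiv S p.2 l + I))

/-- The coordinates `fequiv` recovered from the last components. -/
def back (y : Cn (m + k)) (l : Fin k) : ℂ :=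
  I * (1 + y (Fin.natAdd m l)) / (1 - y (Fin.natAdd m l))

/-- The inverse of the Cayley map. -/
def Ψ (y : Cn (m + k)) : Mod m k :=
  (WithLp.toLp 2 fun i => y (Fin.castAdd k i) * ((∑ l, back y l) + I), (fequiv S).symm (back y))

@[simp] theorem Φ_left (p : Mod m k) (i : Fin m) :
    Φ S p (Fin.castAdd k i) = p.1 i / ((∑ l, fequiv S p.2 l) + I) := by simp [Φ]

@[simp] theorem Φ_right (p : Mod m k) (l : Fin k) :
    Φ S p (Fin.natAdd m l) = (fequiv S p.2 l - I) / (fequiv S p.2 l + I) := by simp [Φ]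

theorem pos_of_mem {p : Mod m k} (hp : p ∈ S.dom) (l : Fin k) :
    0 < (fequiv S p.2 l).im := by
  rw [im_fequiv]
  have h := S.pos l _ hp
  rw [map_sub] at h
  have := nu_H_nonneg S p.1 l
  linarith

theorem q_le {p : Mod m k} (hp : p ∈ S.dom) : q S p.1 ≤ (∑ l, fequiv S p.2 l).im := by
  rw [Complex.im_sum]
  refine Finset.sum_le_sum fun l _ => ?_
  rw [im_fequiv]
  have h := S.pos l _ hp
  rw [map_sub] at h
  linarith

theorem add_I_ne {a : ℂ} (ha : 0 ≤ a.im) : a + I ≠ 0 := fun h => by
  have := congrArg Complex.im h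
  simp at this
  linarith

theorem sum_im_nonneg {p : Mod m k} (hp : p ∈ S.dom) : 0 ≤ (∑ l, fequiv S p.2 l).im := by
  rw [Complex.im_sum]
  exact Finset.sum_nonneg fun l _ => (pos_of_mem S hp l).le

theorem back_Φ {p : Mod m k} (hp : p ∈ S.dom) : back (Φ S p) = fequiv S p.2 := by
  funext l
  have h := add_I_ne (pos_of_mem S hp l).le
  simp only [back, Φ_right]
  rw [div_eq_iff]
  · field_simp
    ring
  · rw [sub_ne_zero, ne_comm, Ne, div_eq_one_iff_eq h]
    intro h'
    have := congrArg Complex.im h'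
    simp at this
    linarith

theorem Ψ_Φ {p : Mod m k} (hp : p ∈ S.dom) : Ψ S (Φ S p) = p := by
  refine Prod.ext ?_ ?_
  · ext i
    simp [Ψ, back_Φ S hp, div_mul_cancel₀ _ (add_I_ne (sum_im_nonneg S hp))]
  · simp [Ψ, back_Φ S hp]

/-- The bounded image. -/
def Dset : Set (Cn (m + k)) :=
  {y | (∀ l : Fin k, y (Fin.natAdd m l) ≠ 1) ∧ ((∑ l, back y l) + I ≠ 0) ∧ Ψ S y ∈ S.dom}

theorem Φ_mem {p : Mod m k} (hp : p ∈ S.dom) : Φ S p ∈ Dset S := by
  refine ⟨fun l => ?_, ?_, by rw [Ψ_Φ S hp]; exact hp⟩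
  · rw [Φ_right, Ne, div_eq_one_iff_eq (add_I_ne (pos_of_mem S hp l).le)]
    intro h'
    have := congrArg Complex.im h'
    simp at this
    linarith
  · rw [back_Φ S hp]
    exact add_I_ne (sum_im_nonneg S hp)

theorem Φ_Ψ {y : Cn (m + k)} (hy : y ∈ Dset S) : Φ S (Ψ S y) = y := by
  obtain ⟨h1, h2, h3⟩ := hy
  ext i
  refine Fin.addCases (fun j => ?_) (fun l => ?_) i
  · simp [Ψ, mul_div_assoc, div_self h2]
  · have hl : (1 : ℂ) - y (Fin.natAdd m l) ≠ 0 := sub_ne_zero.2 (h1 l).symm
    have h4 : back y l + I ≠ 0 := by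
      have := pos_of_mem S h3 l
      simp only [Ψ, ContinuousLinearEquiv.apply_symm_apply] at this
      exact add_I_ne this.le
    simp only [Φ_right, Ψ, ContinuousLinearEquiv.apply_symm_apply]
    rw [div_eq_iff h4, back]
    field_simp
    ring

theorem isOpen_dom : IsOpen S.dom := by
  refine S.isOpen_C.preimage ?_
  have h1 : Continuous fun p : Mod m k => iv p.2 := by
    refine (PiLp.continuous_toLp 2 _).comp (continuous_pi fun i => ?_)
    fun_prop
  exact h1.sub (by fun_prop)

theorem isConnected_dom : IsConnected S.dom := by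
  obtain ⟨v, hv⟩ := S.nonempty_C
  have : S.dom = (fun x : (Cn m × Rn k) × Rn k => ((x.1.1, mkC x.1.2 (x.2 + S.H x.1.1 x.1.1)) :
      Mod m k)) '' (univ ×ˢ S.C) := by
    ext p
    constructor
    · intro hp
      refine ⟨((p.1, rv p.2), iv p.2 - S.H p.1 p.1), ⟨mem_univ _, hp⟩, ?_⟩
      refine Prod.ext rfl ?_
      ext i
      apply Complex.ext <;> simp
    · rintro ⟨x, hx, rfl⟩
      show iv _ - _ ∈ S.C
      simpa [iv_mkC] using hx.2
  rw [this]
  refine (IsConnected.prod isConnected_univ ⟨⟨v, hv⟩, S.convex_C.isPreconnected⟩).image _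
    (Continuous.continuousOn ?_)
  refine continuous_fst.fst.prodMk ((PiLp.continuous_toLp 2 _).comp (continuous_pi fun i => ?_))
  refine Complex.equivRealProdCLM.symm.continuous.comp (Continuous.prodMk ?_ ?_)
  · fun_prop
  · exact (PiLp.continuous_apply 2 (fun _ : Fin k => ℝ) i).comp
      (continuous_snd.add ((S.H.continuous₂).comp (continuous_fst.fst.prodMk continuous_fst.fst)))

@[fun_prop]
theorem differentiable_coord {n : ℕ} (i : Fin n) : Differentiable ℂ fun x : Cn n => x i :=
  fun x => (PiLp.hasFDerivAt_apply 2 x i).differentiableAt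

theorem differentiableOn_Φ : DifferentiableOn ℂ (Φ S) S.dom := by
  have hf : ∀ l, Differentiable ℂ fun p : Mod m k => fequiv S p.2 l := fun l =>
    differentiable_pi.1 ((fequiv S).differentiable.comp differentiable_snd) l
  rw [differentiableOn_piLp]
  intro i
  refine Fin.addCases (fun j => ?_) (fun l => ?_) i
  · simp only [Φ_left, div_eq_mul_inv]
    exact ((differentiable_coord j).comp differentiable_fst).differentiableOn.mul
      (((Differentiable.fun_sum fun l _ => hf l).add_const I).differentiableOn.inv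
        fun p hp => add_I_ne (sum_im_nonneg S hp))
  · simp only [Φ_right, div_eq_mul_inv]
    exact ((hf l).sub_const I).differentiableOn.mul (((hf l).add_const I).differentiableOn.inv
      fun p hp => add_I_ne (pos_of_mem S hp l).le)

theorem differentiableOn_Ψ :
    DifferentiableOn ℂ (Ψ S) {y | ∀ l : Fin k, y (Fin.natAdd m l) ≠ 1} := by
  have hb : ∀ l, DifferentiableOn ℂ (fun y => back y l)
      {y : Cn (m + k) | ∀ l : Fin k, y (Fin.natAdd m l) ≠ 1} := fun l => by
    unfold back
    simp only [div_eq_mul_inv]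
    exact (Differentiable.differentiableOn (by fun_prop)).mul
      (((differentiable_coord (Fin.natAdd m l)).const_sub 1).differentiableOn.inv
        fun y hy => sub_ne_zero.2 (hy l).symm)
  refine DifferentiableOn.prodMk ?_ ?_
  · rw [differentiableOn_piLp]
    intro i
    exact (differentiable_coord (Fin.castAdd k i)).differentiableOn.mul
      ((DifferentiableOn.fun_sum fun l _ => hb l).add_const I)
  · exact (fequiv S).symm.differentiable.comp_differentiableOn (differentiableOn_pi.2 hb)

theorem isOpen_Dset : IsOpen (Dset S) := by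
  have h1 : IsOpen {y : Cn (m + k) | ∀ l : Fin k, y (Fin.natAdd m l) ≠ 1} := by
    simp only [setOf_forall]
    exact isOpen_iInter_of_finite fun l => isOpen_ne_fun (by fun_prop) continuous_const
  have hc : ContinuousOn (fun y : Cn (m + k) => (∑ l, back y l) + I)
      {y | ∀ l : Fin k, y (Fin.natAdd m l) ≠ 1} := by
    refine ContinuousOn.add (continuousOn_finsetSum _ fun l _ => ?_) continuousOn_const
    unfold back
    exact ContinuousOn.div (Continuous.continuousOn (by fun_prop))
      (Continuous.continuousOn (by fun_prop)) fun y hy => sub_ne_zero.2 (hy l).symm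
  have h2 := hc.isOpen_inter_preimage h1 (isOpen_ne (x := (0 : ℂ)))
  have h3 := ((differentiableOn_Ψ S).continuousOn.mono inter_subset_left).isOpen_inter_preimage h2
    (isOpen_dom S)
  convert h3 using 1
  ext y
  simp only [Dset, mem_ofPred_eq, mem_inter_iff, mem_preimage, and_assoc]

theorem bounded_Dset : Bornology.IsBounded (Dset S) := by
  obtain ⟨c, hc, hq⟩ := exists_q_bound S
  refine (isBounded_iff_forall_norm_le).2 ⟨Real.sqrt ((m + k : ℕ) * (1 / c + 1)), fun y hy => ?_⟩
  rw [← Φ_Ψ S hy, EuclideanSpace.norm_eq]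
  refine Real.sqrt_le_sqrt ?_
  set p := Ψ S y with hp'
  have hp : p ∈ S.dom := hy.2.2
  refine le_trans (Finset.sum_le_card_nsmul _ _ (1 / c + 1) fun i _ => ?_) (le_of_eq (by
    rw [Finset.card_univ, Fintype.card_fin, nsmul_eq_mul]))
  refine Fin.addCases (fun j => ?_) (fun l => ?_) i
  · rw [Φ_left, norm_div, div_pow]
    set s := ∑ l, fequiv S p.2 l
    have hs : 0 ≤ s.im := sum_im_nonneg S hp
    have hden : (s.im + 1) ^ 2 ≤ ‖s + I‖ ^ 2 := by
      rw [← Complex.normSq_eq_norm_sq, Complex.normSq_apply]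
      simp only [add_re, I_re, add_zero, add_im, I_im]
      nlinarith [mul_self_nonneg s.re]
    have hnum : ‖p.1 j‖ ^ 2 ≤ s.im / c := by
      rw [le_div_iff₀ hc]
      have h1 : ‖p.1 j‖ ≤ ‖p.1‖ := PiLp.norm_apply_le _ _
      have h2 := hq p.1
      have h3 := q_le S hp
      nlinarith [pow_le_pow_left₀ (norm_nonneg _) h1 2]
    have hs0 : 0 < ‖s + I‖ := norm_pos_iff.2 (add_I_ne hs)
    rw [div_le_iff₀ (by positivity)]
    refine hnum.trans ?_
    have h4 : s.im / c ≤ 1 / c * (s.im + 1) ^ 2 := by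
      rw [one_div, div_eq_inv_mul]
      exact mul_le_mul_of_nonneg_left (by nlinarith) (by positivity)
    refine h4.trans ?_
    exact mul_le_mul (by linarith) hden (by positivity) (by positivity)
  · rw [Φ_right, norm_div, div_pow]
    set a := fequiv S p.2 l
    have ha : 0 < a.im := pos_of_mem S hp l
    have hne : 0 < ‖a + I‖ ^ 2 := by
      have := norm_pos_iff.2 (add_I_ne ha.le)
      positivity
    rw [div_le_iff₀ hne]
    calc ‖a - I‖ ^ 2 ≤ ‖a + I‖ ^ 2 := by
          rw [← Complex.normSq_eq_norm_sq, ← Complex.normSq_eq_norm_sq, Complex.normSq_apply,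
            Complex.normSq_apply]
          simp only [sub_re, I_re, sub_zero, sub_im, I_im, add_re, add_zero, add_im]
          nlinarith
      _ ≤ (1 / c + 1) * ‖a + I‖ ^ 2 := le_mul_of_one_le_left (sq_nonneg _) (by
          have : 0 ≤ 1 / c := by positivity
          linarith)

end

end Vale.Agent.P274.Full.Cayley

namespace Vale.Agent.P274.Full

open Cayley

/-- A Siegel domain is biholomorphic to a bounded domain. -/
theorem cayley : CayleyStmt := by
  intro m k S
  have him : Cayley.Φ S '' S.dom = Dset S := by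
    ext y
    exact ⟨fun ⟨p, hp, e⟩ => e ▸ Φ_mem S hp, fun hy => ⟨Ψ S y, hy.2.2, Φ_Ψ S hy⟩⟩
  refine ⟨m + k, Dset S, isOpen_Dset S,
    him ▸ (isConnected_dom S).image _ (differentiableOn_Φ S).continuousOn, bounded_Dset S,
    Cayley.Φ S, Ψ S, fun x hx => ⟨S.dom, Cayley.Φ S, Cayley.isOpen_dom S, hx, differentiableOn_Φ S,
      fun _ _ => rfl⟩, fun p hp => Φ_mem S hp, (differentiableOn_Ψ S).mono fun y hy => hy.1,
    fun y hy => hy.2.2, fun p hp => Ψ_Φ S hp, fun y hy => Φ_Ψ S hy⟩

end Vale.Agent.P274.Full
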